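import Vale.Agent.N217.Main

/-!
# P217: invariant ideals and invariant functions on the closed fibre, over every field
-/

namespace Vale.Agent.Results.P217.A0Fibre

open MvPowerSeries Vale.Agent.P217.LT Vale.Agent.P217B7 Vale.Agent.N217

/-- Let `Γ` be a commutative formal group law over `𝔽_p` with `[p](X) = X^(p^n)`, `F` a universal
deformation over `E₀` for which the `I_h` cut out the height loci, and `k ⊇ 𝔽_{p^n}` a field.
(1) The action extends to `k[[u_1, …, u_{n-1}]]`. (2) For every finite index subgroup `U`, the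
invariant prime and radical ideals of `k[[u_1, …, u_{n-1}]]`, and the invariants of
`k[[u_h, …, u_{n-1}]]`. (3) The invariants of all weights of `k[[u_h, …, u_{n-1}]]` for `h < n`. -/
theorem result (p n : ℕ) [Fact p.Prime] (hn : 1 ≤ n) (Γ : FormalGroup (ZMod p)) (hc : Γ.IsComm)
    (hΓ : multSeries Γ p = PowerSeries.X ^ p ^ n) (F : FormalGroup (E0 p n))
    (hF : IsUniversal p n Γ F) (hC : CutsOut p n F) (k : Type) [Field k]
    (i : GaloisField p n →+* k) :
    (∀ γ (φ : RingAut (E0 p n)),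
      Acts p n Γ F (RingEquiv.refl _) γ (φ : E0 p n →+* E0 p n) → ∃! ψ, Extends p n i φ ψ) ∧
    (∀ U ≤ actionGroup p n Γ F, U.relIndex (actionGroup p n Γ F) ≠ 0 →
      FibreIdeals p n i U ∧
      ∀ h, 1 ≤ h → h ≤ n → ∀ f : MvPowerSeries (Fin (n - 1)) k,
        FixedMod p n i U h f ↔ ∃ c : k, f - C c ∈ fibreIdeal n k h) ∧
    ∀ h, 1 ≤ h → h < n → ∀ (a b : ℕ) (f : MvPowerSeries (Fin (n - 1)) k),
      HasWeight p n i F h a b f ↔
        (f ∈ fibreIdeal n k h ∨ ∃ (j : ℕ) (c : k), b = a + (p ^ h - 1) * j ∧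
          f - C c * vFibre p n i F h ^ j ∈ fibreIdeal n k h) := by
  have hF' := Vale.Agent.P217.LTC.isUniversal_iff.1 hF
  have o : Ok Γ F := ⟨hn, hc, hΓ, hF', adapted_of_cutsOut hn hc hΓ hF' hC⟩
  exact ⟨ext_unique hn i, geo o i, fun h h1 h2 => gradedK o i h1 h2⟩

end Vale.Agent.Results.P217.A0Fibre
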