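import Vale.Agent.N217X.Main

/-!
# P217: the invariant ideals of the periodic ring `E_* = E₀[u, u⁻¹]`
-/

namespace Vale.Agent.Results.P217.A0Periodic

open Vale.Agent.N217X

/-- Let `Γ` be a commutative formal group law over `𝔽_p` with `[p](X) = X^(p^n)` and `F` a
universal deformation over `E₀` for which the `I_h` cut out the height loci.
(1), (2) The invariant prime and radical ideals of the ungraded ring `E_*`. -/
theorem result (p n : ℕ) [Fact p.Prime] (hn : 1 ≤ n) (Γ : FormalGroup (ZMod p)) (hc : Γ.IsComm)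
    (hΓ : multSeries Γ p = PowerSeries.X ^ p ^ n) (F : FormalGroup (E0 p n))
    (hF : IsUniversal p n Γ F) (hC : CutsOut p n F)
    (S : Set (GaloisField p n ≃+* GaloisField p n)) (hS : RingEquiv.refl _ ∈ S)
    (P : Ideal (EStar p n)) :
    ((P.IsPrime ∧ IsInvariantStar p n Γ F S P) ↔
      ((∃ h ≤ n, P = (heightIdeal p n h).map LaurentPolynomial.C) ∨
        ∃ h Q, 1 ≤ h ∧ h ≤ n ∧ FixedBy p n S Q ∧ Irred p n h Q ∧ P = vIdeal p n F h Q)) ∧
    ((P.IsRadical ∧ IsInvariantStar p n Γ F S P) ↔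
      (P = ⊥ ∨ ∃ Q : ℕ → Polynomial (WittVector p (GaloisField p n)),
        (∀ h, FixedBy p n S (Q h) ∧ (bar p n (Q h) = 0 ∨ Squarefree (bar p n (Q h)))) ∧
        P = ⨅ h ∈ Set.Icc 1 n, vIdeal p n F h (Q h))) := by
  have hF' := P217.LTC.isUniversal_iff.1 hF
  have o : N217.Ok Γ F := ⟨hn, hc, hΓ, hF', P217B7.adapted_of_cutsOut hn hc hΓ hF' hC⟩
  exact N217Y.star' o S hS P

end Vale.Agent.Results.P217.A0Periodic
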